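import Mathlib

/-!
# P235, 3-sums: the collar lemma

Every pseudometric `ρ ≤ d` on three points `R 0, R 1, R 2` (given by its Gromov products
`A 0, A 1, A 2`) extends to a nonexpanding metric `max |Δs| |Δq|` (which is `L₁`) with collars of
full rate at the contracted pairs.
-/

set_option autoImplicit false

namespace Vale.Agent.P235.H231.K5

variable {X : Type}

/-- pseudometric -/
structure PM (d : X → X → ℝ) : Prop where
  self : ∀ x, d x x = 0
  symm : ∀ x y, d x y = d y x
  tri : ∀ x y z, d x z ≤ d x y + d y z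

theorem PM.nonneg {d : X → X → ℝ} (h : PM d) (x y : X) : 0 ≤ d x y := by
  have h1 := h.tri x y x
  rw [h.self, h.symm y x] at h1
  linarith

/-- 1-Lipschitz -/
def Lip (d : X → X → ℝ) (s : X → ℝ) : Prop := ∀ x y, |s x - s y| ≤ d x y

theorem Lip.le {d : X → X → ℝ} {s : X → ℝ} (h : Lip d s) (x y : X) : s x - s y ≤ d x y :=
  (le_abs_self _).trans (h x y)

theorem Lip.of_le {d : X → X → ℝ} (hd : PM d) {s : X → ℝ} (h : ∀ x y, s x - s y ≤ d x y) :
    Lip d s := by
  intro x y
  rw [abs_le]
  constructor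
  · have := h y x
    rw [hd.symm y x] at this
    linarith
  · exact h x y

theorem Lip.dist {d : X → X → ℝ} (hd : PM d) (a : X) : Lip d (fun x => d x a) :=
  Lip.of_le hd fun x y => by
    have := hd.tri x y a
    linarith

theorem Lip.min {d : X → X → ℝ} {s t : X → ℝ} (hd : PM d) (hs : Lip d s) (ht : Lip d t) :
    Lip d (fun x => Min.min (s x) (t x)) :=
  Lip.of_le hd fun x y => by
    have h1 := hs.le x y
    have h2 := ht.le x y
    rcases min_cases (s y) (t y) with ⟨h, _⟩ | ⟨h, _⟩
    · rw [h]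
      have := min_le_left (s x) (t x)
      linarith
    · rw [h]
      have := min_le_right (s x) (t x)
      linarith

theorem Lip.posPart {d : X → X → ℝ} {s : X → ℝ} (hd : PM d) (hs : Lip d s) :
    Lip d (fun x => Max.max 0 (s x)) :=
  Lip.of_le hd fun x y => by
    have h1 := hs.le x y
    have h3 := hd.nonneg x y
    rcases max_cases 0 (s x) with ⟨h, _⟩ | ⟨h, _⟩
    · rw [h]
      have := le_max_left 0 (s y)
      linarith
    · rw [h]
      have := le_max_right 0 (s y)
      linarith

theorem Lip.const_add {d : X → X → ℝ} {s : X → ℝ} (hs : Lip d s) (c : ℝ) :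
    Lip d (fun x => c + s x) := by
  intro x y
  have := hs x y
  rwa [add_sub_add_left_eq_sub]

theorem Lip.const_sub {d : X → X → ℝ} {s : X → ℝ} (hs : Lip d s) (c : ℝ) :
    Lip d (fun x => c - s x) := by
  intro x y
  have := hs x y
  rw [abs_sub_comm] at this
  have e : c - s x - (c - s y) = s y - s x := by ring
  rwa [e]

/-- the positive bump -/
noncomputable def bump (W : ℝ) (σ u : X → ℝ) (x : X) : ℝ := max 0 (min (σ x) (W - u x))

theorem bump_nonneg (W : ℝ) (σ u : X → ℝ) (x : X) : 0 ≤ bump W σ u x := le_max_left _ _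

theorem bump_lip {d : X → X → ℝ} (hd : PM d) {W : ℝ} {σ u : X → ℝ} (hσ : Lip d σ)
    (hu : Lip d u) : Lip d (bump W σ u) :=
  (Lip.min hd hσ (hu.const_sub W)).posPart hd

theorem bump_zero {W : ℝ} {σ u : X → ℝ} {x : X} (h : W ≤ u x) : bump W σ u x = 0 := by
  unfold bump
  apply max_eq_left
  exact (min_le_right _ _).trans (by linarith)

theorem bump_le {W : ℝ} {σ u : X → ℝ} {x : X} (h : bump W σ u x ≠ 0) :
    bump W σ u x ≤ W - u x := by
  unfold bump at h ⊢
  rcases max_cases 0 (min (σ x) (W - u x)) with ⟨h1, _⟩ | ⟨h1, _⟩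
  · exact absurd h1 h
  · rw [h1]; exact min_le_right _ _

theorem bump_eq {W : ℝ} {σ u : X → ℝ} {x : X} (h0 : 0 ≤ σ x) (h : σ x ≤ W - u x) :
    bump W σ u x = σ x := by
  unfold bump
  rw [min_eq_left h, max_eq_right h0]

/-- the whiskered function is 1-Lipschitz -/
theorem whisk {d : X → X → ℝ} (hd : PM d) {W : ℝ} {σ u τ v : X → ℝ} (hσ : Lip d σ)
    (hu : Lip d u) (hτ : Lip d τ) (hv : Lip d v) (hsep : ∀ x y, 2 * W ≤ u x + d x y + v y) :
    Lip d (fun x => bump W σ u x - bump W τ v x) := by
  have hP := bump_lip (W := W) hd hσ hu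
  have hN := bump_lip (W := W) hd hτ hv
  have hdis : ∀ x, bump W σ u x = 0 ∨ bump W τ v x = 0 := by
    intro x
    by_contra h
    push Not at h
    obtain ⟨h1, h2⟩ := h
    have e1 := bump_le h1
    have e2 := bump_le h2
    have e3 := hsep x x
    rw [hd.self] at e3
    have p1 := lt_of_le_of_ne (bump_nonneg W σ u x) (Ne.symm h1)
    have p2 := lt_of_le_of_ne (bump_nonneg W τ v x) (Ne.symm h2)
    linarith
  have hpn : ∀ x y, bump W τ v x = 0 → bump W σ u y = 0 → bump W σ u x + bump W τ v y ≤ d x y := by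
    intro x y hx hy
    by_cases h1 : bump W σ u x = 0
    · rw [h1]
      have := hN.le y x
      rw [hd.symm] at this
      linarith
    · by_cases h2 : bump W τ v y = 0
      · rw [h2]
        have := hP.le x y
        linarith
      · have e1 := bump_le h1
        have e2 := bump_le h2
        have e3 := hsep x y
        linarith
  refine Lip.of_le hd fun x y => ?_
  have hPx := bump_nonneg W σ u x
  have hPy := bump_nonneg W σ u y
  have hNx := bump_nonneg W τ v x
  have hNy := bump_nonneg W τ v y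
  have hdn := hd.nonneg x y
  have l1 := hP.le x y
  have l2 := hN.le y x
  rw [hd.symm] at l2
  rcases hdis x with hx | hx <;> rcases hdis y with hy | hy
  · show bump W σ u x - bump W τ v x - (bump W σ u y - bump W τ v y) ≤ d x y
    linarith
  · show bump W σ u x - bump W τ v x - (bump W σ u y - bump W τ v y) ≤ d x y
    linarith
  · have := hpn x y hx hy
    show bump W σ u x - bump W τ v x - (bump W σ u y - bump W τ v y) ≤ d x y
    linarith
  · show bump W σ u x - bump W τ v x - (bump W σ u y - bump W τ v y) ≤ d x y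
    linarith

/-- McShane for three points -/
theorem mcs {d : X → X → ℝ} (hd : PM d) (a b c : X) (α β γ : ℝ) (hab : |α - β| ≤ d a b)
    (hbc : |β - γ| ≤ d b c) (hac : |α - γ| ≤ d a c) :
    ∃ f : X → ℝ, Lip d f ∧ f a = α ∧ f b = β ∧ f c = γ := by
  refine ⟨fun x => min (α + d x a) (min (β + d x b) (γ + d x c)),
    Lip.min hd ((Lip.dist hd a).const_add α)
      (Lip.min hd ((Lip.dist hd b).const_add β) ((Lip.dist hd c).const_add γ)), ?_, ?_, ?_⟩
  · rw [abs_le] at hab hac
    show min (α + d a a) (min (β + d a b) (γ + d a c)) = α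
    rw [hd.self, add_zero]
    exact min_eq_left (le_min (by linarith) (by linarith))
  · rw [abs_le] at hab hbc
    show min (α + d b a) (min (β + d b b) (γ + d b c)) = β
    rw [hd.self, add_zero, hd.symm b a, min_eq_left (show β ≤ γ + d b c by linarith)]
    exact min_eq_right (by linarith)
  · rw [abs_le] at hac hbc
    show min (α + d c a) (min (β + d c b) (γ + d c c)) = γ
    rw [hd.self, add_zero, hd.symm c a, hd.symm c b,
      min_eq_right (show γ ≤ β + d b c by linarith)]
    exact min_eq_right (by linarith)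

/-- the function `s`: `b` against `{a, c}` -/
theorem sfun {d : X → X → ℝ} (hd : PM d) (a b c : X) {A B C : ℝ} (hA : 0 ≤ A) (hB : 0 ≤ B)
    (hC : 0 ≤ C) (hab : A + B ≤ d a b) (hbc : B + C ≤ d b c) (hac : A + C ≤ d a c) (W : ℝ)
    (hWa : 2 * W ≤ d a b) (hWc : 2 * W ≤ d b c) :
    ∃ s : X → ℝ, Lip d s ∧ s a = A ∧ s b = -B ∧ s c = C ∧
      (A ≤ W / 2 → B ≤ W / 2 → C ≤ W / 2 → ∀ x y, (d x a ≤ W / 4 ∨ d x c ≤ W / 4) →
        d y b ≤ W / 4 → A + B + d x a + d y b ≤ s x - s y ∨ B + C + d x c + d y b ≤ s x - s y) := by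
  by_cases h : A ≤ W / 2 ∧ B ≤ W / 2 ∧ C ≤ W / 2
  · obtain ⟨h1, h2, h3⟩ := h
    have hW : 0 ≤ W := by linarith
    set σ : X → ℝ := fun x => min (A + d x a) (C + d x c) with hσ
    set u : X → ℝ := fun x => min (d x a) (d x c) with hu
    set τ : X → ℝ := fun x => B + d x b with hτ
    set v : X → ℝ := fun x => d x b with hv
    have lσ : Lip d σ := Lip.min hd ((Lip.dist hd a).const_add A) ((Lip.dist hd c).const_add C)
    have lu : Lip d u := Lip.min hd (Lip.dist hd a) (Lip.dist hd c)
    have lτ : Lip d τ := (Lip.dist hd b).const_add B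
    have lv : Lip d v := Lip.dist hd b
    have hsep : ∀ x y, 2 * W ≤ u x + d x y + v y := by
      intro x y
      show 2 * W ≤ min (d x a) (d x c) + d x y + d y b
      have e1 := hd.tri a x b
      have e2 := hd.tri x y b
      have e3 := hd.tri c x b
      have e4 := hd.symm a x
      have e5 := hd.symm c x
      have e6 := hd.symm b c
      rcases min_cases (d x a) (d x c) with ⟨h, _⟩ | ⟨h, _⟩ <;> rw [h] <;> linarith
    have hux : ∀ x, 0 ≤ u x := fun x => le_min (hd.nonneg _ _) (hd.nonneg _ _)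
    have hva : v a = d a b := rfl
    have hvc : v c = d b c := hd.symm c b
    have hσ0 : ∀ x, 0 ≤ σ x := fun x =>
      le_min (add_nonneg hA (hd.nonneg _ _)) (add_nonneg hC (hd.nonneg _ _))
    have hACd : A ≤ C + d a c := by linarith
    have hCAd : C ≤ A + d c a := by rw [hd.symm c a]; linarith
    have hσa : σ a = A := by
      show min (A + d a a) (C + d a c) = A
      rw [hd.self, add_zero]; exact min_eq_left hACd
    have hσc : σ c = C := by
      show min (A + d c a) (C + d c c) = C
      rw [hd.self, add_zero]; exact min_eq_right hCAd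
    have hua : u a = 0 := by
      show min (d a a) (d a c) = 0
      rw [hd.self]; exact min_eq_left (hd.nonneg _ _)
    have huc : u c = 0 := by
      show min (d c a) (d c c) = 0
      rw [hd.self]; exact min_eq_right (hd.nonneg _ _)
    have hvb : v b = 0 := hd.self b
    have hub : W ≤ u b := by
      show W ≤ min (d b a) (d b c)
      exact le_min (by rw [hd.symm b a]; linarith) (by linarith)
    refine ⟨fun x => bump W σ u x - bump W τ v x, whisk hd lσ lu lτ lv hsep, ?_, ?_, ?_, ?_⟩
    · show bump W σ u a - bump W τ v a = A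
      rw [bump_eq (hσ0 a) (by rw [hσa, hua]; linarith), bump_zero (by rw [hva]; linarith), hσa,
        sub_zero]
    · show bump W σ u b - bump W τ v b = -B
      have hτb : τ b = B := by
        show B + d b b = B
        rw [hd.self, add_zero]
      rw [bump_zero hub, bump_eq (by rw [hτb]; exact hB) (by rw [hτb, hvb]; linarith), hτb,
        zero_sub]
    · show bump W σ u c - bump W τ v c = C
      rw [bump_eq (hσ0 c) (by rw [hσc, huc]; linarith), bump_zero (by rw [hvc]; linarith), hσc,
        sub_zero]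
    · intro _ _ _ x y hx hy
      have hu4 : u x ≤ W / 4 := by
        rcases hx with hx | hx
        · exact (min_le_left _ _).trans hx
        · exact (min_le_right _ _).trans hx
      have hσx : σ x ≤ W - u x := by
        rcases hx with hx | hx
        · have : σ x ≤ A + d x a := min_le_left _ _
          linarith
        · have : σ x ≤ C + d x c := min_le_right _ _
          linarith
      have hvx : W ≤ v x := by
        have := hsep x x
        rw [hd.self] at this
        linarith
      have huy : W ≤ u y := by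
        have := hsep y y
        rw [hd.self] at this
        have hvy : v y ≤ W / 4 := hy
        linarith
      have hτy : τ y ≤ W - v y := by
        show B + d y b ≤ W - d y b
        linarith
      have hτ0 : 0 ≤ τ y := add_nonneg hB (hd.nonneg _ _)
      have e : bump W σ u x - bump W τ v x - (bump W σ u y - bump W τ v y) = σ x + τ y := by
        rw [bump_eq (hσ0 x) hσx, bump_zero hvx, bump_zero huy, bump_eq hτ0 hτy]
        ring
      show A + B + d x a + d y b ≤ bump W σ u x - bump W τ v x - (bump W σ u y - bump W τ v y) ∨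
        B + C + d x c + d y b ≤ bump W σ u x - bump W τ v x - (bump W σ u y - bump W τ v y)
      rw [e]
      have hτy' : τ y = B + d y b := rfl
      rcases min_cases (A + d x a) (C + d x c) with ⟨h, _⟩ | ⟨h, _⟩
      · left
        have : σ x = A + d x a := h
        linarith
      · right
        have : σ x = C + d x c := h
        linarith
  · obtain ⟨f, hf, fa, fb, fc⟩ := mcs hd a b c A (-B) C
      (by rw [sub_neg_eq_add, abs_of_nonneg (by linarith)]; exact hab)
      (by rw [abs_sub_comm, sub_neg_eq_add, abs_of_nonneg (by linarith)]; linarith)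
      (by rw [abs_le]; constructor <;> linarith)
    exact ⟨f, hf, fa, fb, fc, fun h1 h2 h3 => absurd ⟨h1, h2, h3⟩ h⟩

/-- the function `q`: `a` against `c` -/
theorem qfun {d : X → X → ℝ} (hd : PM d) (a b c : X) {A C : ℝ} (hA : 0 ≤ A)
    (hC : 0 ≤ C) (hab : A ≤ d a b) (hbc : C ≤ d b c) (hac : A + C ≤ d a c) (W : ℝ)
    (hW1 : 2 * W ≤ d a c) (hW2 : W ≤ d a b) (hW3 : W ≤ d b c) :
    ∃ q : X → ℝ, Lip d q ∧ q a = A ∧ q b = 0 ∧ q c = -C ∧
      (A ≤ W / 2 → C ≤ W / 2 → ∀ x y, d x a ≤ W / 4 → d y c ≤ W / 4 →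
        A + C + d x a + d y c ≤ q x - q y) := by
  by_cases h : A ≤ W / 2 ∧ C ≤ W / 2
  · obtain ⟨h1, h3⟩ := h
    have hW : 0 ≤ W := by linarith
    set σ : X → ℝ := fun x => A + d x a with hσ
    set u : X → ℝ := fun x => d x a with hu
    set τ : X → ℝ := fun x => C + d x c with hτ
    set v : X → ℝ := fun x => d x c with hv
    have lσ : Lip d σ := (Lip.dist hd a).const_add A
    have lu : Lip d u := Lip.dist hd a
    have lτ : Lip d τ := (Lip.dist hd c).const_add C
    have lv : Lip d v := Lip.dist hd c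
    have hsep : ∀ x y, 2 * W ≤ u x + d x y + v y := by
      intro x y
      show 2 * W ≤ d x a + d x y + d y c
      have e1 := hd.tri a x c
      have e2 := hd.tri x y c
      have e4 := hd.symm a x
      linarith
    have hσ0 : ∀ x, 0 ≤ σ x := fun x => add_nonneg hA (hd.nonneg _ _)
    have hτ0 : ∀ x, 0 ≤ τ x := fun x => add_nonneg hC (hd.nonneg _ _)
    have hσa : σ a = A := by
      show A + d a a = A
      rw [hd.self, add_zero]
    have hτc : τ c = C := by
      show C + d c c = C
      rw [hd.self, add_zero]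
    have hua : u a = 0 := hd.self a
    have hvc : v c = 0 := hd.self c
    have hva : W ≤ v a := by
      show W ≤ d a c
      linarith
    have huc : W ≤ u c := by
      show W ≤ d c a
      rw [hd.symm c a]; linarith
    have hub : W ≤ u b := by
      show W ≤ d b a
      rw [hd.symm b a]; exact hW2
    have hvb : W ≤ v b := hW3
    refine ⟨fun x => bump W σ u x - bump W τ v x, whisk hd lσ lu lτ lv hsep, ?_, ?_, ?_, ?_⟩
    · show bump W σ u a - bump W τ v a = A
      rw [bump_eq (hσ0 a) (by rw [hσa, hua]; linarith), bump_zero hva, hσa, sub_zero]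
    · show bump W σ u b - bump W τ v b = 0
      rw [bump_zero hub, bump_zero hvb, sub_zero]
    · show bump W σ u c - bump W τ v c = -C
      rw [bump_zero huc, bump_eq (hτ0 c) (by rw [hτc, hvc]; linarith), hτc, zero_sub]
    · intro _ _ x y hx hy
      have hvx : W ≤ v x := by
        have := hsep x x
        rw [hd.self] at this
        have hux : u x ≤ W / 4 := hx
        linarith
      have huy : W ≤ u y := by
        have := hsep y y
        rw [hd.self] at this
        have hvy : v y ≤ W / 4 := hy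
        linarith
      have hσx : σ x ≤ W - u x := by
        show A + d x a ≤ W - d x a
        linarith
      have hτy : τ y ≤ W - v y := by
        show C + d y c ≤ W - d y c
        linarith
      have e : bump W σ u x - bump W τ v x - (bump W σ u y - bump W τ v y) = σ x + τ y := by
        rw [bump_eq (hσ0 x) hσx, bump_zero hvx, bump_zero huy, bump_eq (hτ0 y) hτy]
        ring
      show A + C + d x a + d y c ≤ bump W σ u x - bump W τ v x - (bump W σ u y - bump W τ v y)
      rw [e]
      show A + C + d x a + d y c ≤ A + d x a + (C + d y c)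
      linarith
  · obtain ⟨f, hf, fa, fb, fc⟩ := mcs hd a b c A 0 (-C)
      (by rw [sub_zero, abs_of_nonneg hA]; exact hab)
      (by rw [zero_sub, neg_neg, abs_of_nonneg hC]; exact hbc)
      (by rw [sub_neg_eq_add, abs_of_nonneg (by linarith)]; exact hac)
    exact ⟨f, hf, fa, fb, fc, fun h1 h3 => absurd ⟨h1, h3⟩ h⟩

/-- the metric `max |Δs| |Δq|` -/
noncomputable def Mx (s q : X → ℝ) (x y : X) : ℝ := max |s x - s y| |q x - q y|

theorem Mx_symm (s q : X → ℝ) (x y : X) : Mx s q x y = Mx s q y x := by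
  unfold Mx
  rw [abs_sub_comm (s x), abs_sub_comm (q x)]

theorem perm3 : ∀ i j k i0 j0 : Fin 3, i ≠ j → j ≠ k → i ≠ k → i0 ≠ j0 →
    (i0 = i ∧ j0 = j) ∨ (i0 = j ∧ j0 = i) ∨ (i0 = i ∧ j0 = k) ∨ (i0 = k ∧ j0 = i) ∨
      (i0 = j ∧ j0 = k) ∨ (i0 = k ∧ j0 = j) := by decide

/-- the lower bound for the pair `x, y` -/
def Far (d : X → X → ℝ) (R : Fin 3 → X) (A : Fin 3 → ℝ) (s q : X → ℝ) (x y : X) : Prop :=
  ∃ i j : Fin 3, i ≠ j ∧ A i + A j + d x (R i) + d y (R j) ≤ Mx s q x y

theorem Far.symm {d : X → X → ℝ} {R : Fin 3 → X} {A : Fin 3 → ℝ} {s q : X → ℝ} {x y : X}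
    (h : Far d R A s q x y) : Far d R A s q y x := by
  obtain ⟨i, j, hij, h⟩ := h
  refine ⟨j, i, hij.symm, ?_⟩
  rw [Mx_symm]
  linarith

theorem cfg {d : X → X → ℝ} (hd : PM d) (R : Fin 3 → X) (A : Fin 3 → ℝ) (hA : ∀ i, 0 ≤ A i)
    (hAd : ∀ i j, i ≠ j → A i + A j ≤ d (R i) (R j)) {i j k : Fin 3} (hij : i ≠ j)
    (hjk : j ≠ k) (hik : i ≠ k) (W W' : ℝ) (h1 : 2 * W ≤ d (R i) (R k))
    (h2 : 2 * W ≤ d (R k) (R j)) (h3 : 2 * W' ≤ d (R i) (R j)) (h4 : W' ≤ d (R i) (R k))
    (h5 : W' ≤ d (R k) (R j)) :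
    ∃ s q : X → ℝ, Lip d s ∧ Lip d q ∧
      (∀ i0 j0, i0 ≠ j0 → Mx s q (R i0) (R j0) = A i0 + A j0) ∧
      (A i ≤ W / 2 → A k ≤ W / 2 → A j ≤ W / 2 → ∀ x y,
        (d x (R i) ≤ W / 4 ∨ d x (R j) ≤ W / 4) → d y (R k) ≤ W / 4 → Far d R A s q x y) ∧
      (A i ≤ W' / 2 → A j ≤ W' / 2 → ∀ x y, d x (R i) ≤ W' / 4 → d y (R j) ≤ W' / 4 →
        Far d R A s q x y) := by
  have a1 := hAd i k hik
  have a2 := hAd k j hjk.symm
  have a3 := hAd i j hij
  have p1 := hA i
  have p2 := hA j
  have p3 := hA k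
  obtain ⟨s, ls, sa, sb, sc, hs⟩ := sfun hd (R i) (R k) (R j) p1 p3 p2 a1 a2 a3 W h1 h2
  obtain ⟨q, lq, qa, qb, qc, hq⟩ := qfun hd (R i) (R k) (R j) p1 p2 (by linarith)
    (by linarith) a3 W' h3 h4 h5
  have e1 : Mx s q (R i) (R j) = A i + A j := by
    unfold Mx
    rw [sa, sc, qa, qc, sub_neg_eq_add, abs_of_nonneg (show 0 ≤ A i + A j by linarith)]
    apply max_eq_right
    rw [abs_le]
    constructor <;> linarith
  have e2 : Mx s q (R i) (R k) = A i + A k := by
    unfold Mx
    rw [sa, sb, qa, qb, sub_neg_eq_add, sub_zero, abs_of_nonneg (show 0 ≤ A i + A k by linarith),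
      abs_of_nonneg p1]
    exact max_eq_left (by linarith)
  have e3 : Mx s q (R j) (R k) = A j + A k := by
    unfold Mx
    rw [sc, sb, qc, qb, sub_neg_eq_add, sub_zero, abs_neg,
      abs_of_nonneg (show 0 ≤ A j + A k by linarith), abs_of_nonneg p2]
    exact max_eq_left (by linarith)
  refine ⟨s, q, ls, lq, ?_, ?_, ?_⟩
  · intro i0 j0 h0
    rcases perm3 i j k i0 j0 hij hjk hik h0 with ⟨rfl, rfl⟩ | ⟨rfl, rfl⟩ | ⟨rfl, rfl⟩ |
      ⟨rfl, rfl⟩ | ⟨rfl, rfl⟩ | ⟨rfl, rfl⟩
    · exact e1
    · rw [Mx_symm, e1, add_comm]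
    · exact e2
    · rw [Mx_symm, e2, add_comm]
    · exact e3
    · rw [Mx_symm, e3, add_comm]
  · intro g1 g2 g3 x y hx hy
    rcases hs g1 g2 g3 x y hx hy with h | h
    · exact ⟨i, k, hik, h.trans ((le_abs_self _).trans (le_max_left _ _))⟩
    · refine ⟨j, k, hjk, ?_⟩
      have : s x - s y ≤ Mx s q x y := (le_abs_self _).trans (le_max_left _ _)
      linarith
  · intro g1 g2 x y hx hy
    refine ⟨i, j, hij, ?_⟩
    have h := hq g1 g2 x y hx hy
    have : q x - q y ≤ Mx s q x y := (le_abs_self _).trans (le_max_right _ _)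
    linarith

/-- **the collar lemma** -/
theorem collar {d : X → X → ℝ} (hd : PM d) (R : Fin 3 → X) (A : Fin 3 → ℝ) (hA : ∀ i, 0 ≤ A i)
    (hAd : ∀ i j, i ≠ j → A i + A j ≤ d (R i) (R j)) :
    ∃ s q : X → ℝ, Lip d s ∧ Lip d q ∧
      (∀ i j, i ≠ j → Mx s q (R i) (R j) = A i + A j) ∧
      ∀ x y (i j : Fin 3), i ≠ j → d x (R i) + (A i + A j) + d y (R j) ≤ 1 / 256 * d x y →
        Far d R A s q x y := by
  -- the consequences of being near
  have near : ∀ x y (i j : Fin 3), i ≠ j →
      d x (R i) + (A i + A j) + d y (R j) ≤ 1 / 256 * d x y →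
      d x (R i) ≤ 1 / 255 * d (R i) (R j) ∧ d y (R j) ≤ 1 / 255 * d (R i) (R j) ∧
        A i + A j ≤ 1 / 255 * d (R i) (R j) := by
    intro x y i j hij h
    have t1 := hd.tri x (R i) y
    have t2 := hd.tri (R i) (R j) y
    have t3 := hd.symm (R j) y
    have n1 := hd.nonneg x (R i)
    have n2 := hd.nonneg y (R j)
    have n3 := hA i
    have n4 := hA j
    refine ⟨?_, ?_, ?_⟩ <;> linarith
  by_cases hR : ∃ r t m : Fin 3, r ≠ t ∧ t ≠ m ∧ r ≠ m ∧
      A r + A t ≤ 1 / 255 * d (R r) (R t) ∧ d (R r) (R t) / 16 < A m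
  · obtain ⟨r, t, m, hrt, htm, hrm, hc, hm⟩ := hR
    have b1 := hAd r m hrm
    have b2 := hAd m t htm.symm
    have b3 := hAd r t hrt
    have p1 := hA r
    have p2 := hA t
    have p3 := hA m
    have n0 := hd.nonneg (R r) (R t)
    set W := min (d (R r) (R m)) (d (R m) (R t)) / 2 with hW
    set W' := min (d (R r) (R t) / 2) (min (d (R r) (R m)) (d (R m) (R t))) with hW'
    have w1 : 2 * W ≤ d (R r) (R m) := by
      have := min_le_left (d (R r) (R m)) (d (R m) (R t)); linarith
    have w2 : 2 * W ≤ d (R m) (R t) := by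
      have := min_le_right (d (R r) (R m)) (d (R m) (R t)); linarith
    have w3 : 2 * W' ≤ d (R r) (R t) := by
      have := min_le_left (d (R r) (R t) / 2) (min (d (R r) (R m)) (d (R m) (R t))); linarith
    have w4 : W' ≤ d (R r) (R m) := (min_le_right _ _).trans (min_le_left _ _)
    have w5 : W' ≤ d (R m) (R t) := (min_le_right _ _).trans (min_le_right _ _)
    obtain ⟨s, q, ls, lq, hR3, hS, hQ⟩ := cfg hd R A hA hAd hrt htm hrm W W' w1 w2 w3 w4 w5
    refine ⟨s, q, ls, lq, hR3, ?_⟩
    have hW'16 : d (R r) (R t) / 16 ≤ W' := by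
      refine le_min (by linarith) (le_min ?_ ?_) <;> linarith
    -- the pair r, t
    have key1 : ∀ x y, d x (R r) ≤ 1 / 255 * d (R r) (R t) →
        d y (R t) ≤ 1 / 255 * d (R r) (R t) → Far d R A s q x y := by
      intro x y hx hy
      exact hQ (by linarith) (by linarith) x y (by linarith) (by linarith)
    -- the pairs with m
    have key2 : ∀ D : ℝ, (D = d (R r) (R m) ∨ D = d (R m) (R t)) → A m ≤ 1 / 255 * D →
        ∀ x y, (d x (R r) ≤ 1 / 255 * D ∨ d x (R t) ≤ 1 / 255 * D) →
          d y (R m) ≤ 1 / 255 * D → Far d R A s q x y := by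
      intro D hD hAD x y hx hy
      have t1 := hd.tri (R r) (R t) (R m)
      have t2 := hd.tri (R m) (R r) (R t)
      have t3 := hd.symm (R t) (R m)
      have t4 := hd.symm (R m) (R r)
      have hWD : 46 / 100 * D ≤ W := by
        have : 92 / 100 * D ≤ min (d (R r) (R m)) (d (R m) (R t)) := by
          rcases hD with hD | hD <;> refine le_min ?_ ?_ <;> linarith
        linarith
      refine hS (by linarith) (by linarith) (by linarith) x y ?_ (by linarith)
      rcases hx with hx | hx
      · left; linarith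
      · right; linarith
    intro x y i j hij hnear
    obtain ⟨n1, n2, n3⟩ := near x y i j hij hnear
    rcases perm3 r t m i j hrt htm hrm hij with ⟨rfl, rfl⟩ | ⟨rfl, rfl⟩ | ⟨rfl, rfl⟩ |
      ⟨rfl, rfl⟩ | ⟨rfl, rfl⟩ | ⟨rfl, rfl⟩
    · exact key1 x y n1 n2
    · rw [hd.symm (R i) (R j)] at n1 n2
      exact (key1 y x n2 n1).symm
    · exact key2 _ (Or.inl rfl) (by linarith) x y (Or.inl n1) n2
    · rw [hd.symm (R i) (R j)] at n1 n2 n3
      exact (key2 _ (Or.inl rfl) (by linarith) y x (Or.inl n2) n1).symm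
    · rw [hd.symm (R i) (R j)] at n1 n2 n3
      exact key2 _ (Or.inr rfl) (by linarith) x y (Or.inr n1) n2
    · exact (key2 _ (Or.inr rfl) (by linarith) y x (Or.inr n2) n1).symm
  · push Not at hR
    -- the closest pair
    obtain ⟨r, t, m, hrt, htm, hrm, c1, c2⟩ : ∃ r t m : Fin 3, r ≠ t ∧ t ≠ m ∧ r ≠ m ∧
        d (R r) (R t) ≤ d (R r) (R m) ∧ d (R r) (R t) ≤ d (R m) (R t) := by
      have s10 := hd.symm (R 1) (R 0)
      have s20 := hd.symm (R 2) (R 0)
      have s21 := hd.symm (R 2) (R 1)
      rcases le_total (d (R 0) (R 1)) (d (R 0) (R 2)) with h1 | h1 <;>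
        rcases le_total (d (R 0) (R 1)) (d (R 1) (R 2)) with h2 | h2 <;>
        rcases le_total (d (R 0) (R 2)) (d (R 1) (R 2)) with h3 | h3
      · exact ⟨0, 1, 2, by decide, by decide, by decide, h1, by rw [s21]; exact h2⟩
      · exact ⟨0, 1, 2, by decide, by decide, by decide, h1, by rw [s21]; exact h2⟩
      · exact ⟨0, 1, 2, by decide, by decide, by decide, h1, by rw [s21]; linarith⟩
      · exact ⟨1, 2, 0, by decide, by decide, by decide, by rw [s10]; exact h2, h3⟩
      · exact ⟨0, 2, 1, by decide, by decide, by decide, h1, h3⟩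
      · exact ⟨0, 2, 1, by decide, by decide, by decide, h1, by linarith⟩
      · exact ⟨0, 2, 1, by decide, by decide, by decide, h1, h3⟩
      · exact ⟨1, 2, 0, by decide, by decide, by decide, by rw [s10]; exact h2, h3⟩
    have b1 := hAd r m hrm
    have b2 := hAd m t htm.symm
    have b3 := hAd r t hrt
    have p1 := hA r
    have p2 := hA t
    have p3 := hA m
    have n0 := hd.nonneg (R r) (R t)
    set W := min (d (R r) (R m)) (d (R m) (R t)) / 2 with hW
    set W' := d (R r) (R t) / 2 with hW'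
    have w1 : 2 * W ≤ d (R r) (R m) := by
      have := min_le_left (d (R r) (R m)) (d (R m) (R t)); linarith
    have w2 : 2 * W ≤ d (R m) (R t) := by
      have := min_le_right (d (R r) (R m)) (d (R m) (R t)); linarith
    obtain ⟨s, q, ls, lq, hR3, hS, hQ⟩ := cfg hd R A hA hAd hrt htm hrm W W' w1 w2
      (by linarith) (by linarith) (by linarith)
    refine ⟨s, q, ls, lq, hR3, ?_⟩
    have key1 : ∀ x y, A r + A t ≤ 1 / 255 * d (R r) (R t) →
        d x (R r) ≤ 1 / 255 * d (R r) (R t) →
        d y (R t) ≤ 1 / 255 * d (R r) (R t) → Far d R A s q x y := by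
      intro x y hA' hx hy
      exact hQ (by linarith) (by linarith) x y (by linarith) (by linarith)
    have t1 := hd.tri (R r) (R t) (R m)
    have t2 := hd.tri (R m) (R r) (R t)
    have t3 := hd.symm (R t) (R m)
    have t4 := hd.symm (R m) (R r)
    have key2 : ∀ x y, A r + A m ≤ 1 / 255 * d (R r) (R m) →
        d x (R r) ≤ 1 / 255 * d (R r) (R m) → d y (R m) ≤ 1 / 255 * d (R r) (R m) →
        Far d R A s q x y := by
      intro x y hA' hx hy
      have h6 := hR r m t hrm htm.symm hrt hA'
      have hWD : d (R r) (R m) / 4 ≤ W := by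
        have : d (R r) (R m) / 2 ≤ min (d (R r) (R m)) (d (R m) (R t)) := by
          refine le_min ?_ ?_ <;> linarith
        linarith
      exact hS (by linarith) (by linarith) (by linarith) x y (Or.inl (by linarith))
        (by linarith)
    have key3 : ∀ x y, A t + A m ≤ 1 / 255 * d (R m) (R t) →
        d x (R t) ≤ 1 / 255 * d (R m) (R t) → d y (R m) ≤ 1 / 255 * d (R m) (R t) →
        Far d R A s q x y := by
      intro x y hA' hx hy
      have h6 := hR t m r htm hrm.symm hrt.symm (by rw [t3]; exact hA')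
      rw [t3] at h6
      have hWD : d (R m) (R t) / 4 ≤ W := by
        have : d (R m) (R t) / 2 ≤ min (d (R r) (R m)) (d (R m) (R t)) := by
          refine le_min ?_ ?_ <;> linarith
        linarith
      exact hS (by linarith) (by linarith) (by linarith) x y (Or.inr (by linarith))
        (by linarith)
    intro x y i j hij hnear
    obtain ⟨n1, n2, n3⟩ := near x y i j hij hnear
    rcases perm3 r t m i j hrt htm hrm hij with ⟨rfl, rfl⟩ | ⟨rfl, rfl⟩ | ⟨rfl, rfl⟩ |
      ⟨rfl, rfl⟩ | ⟨rfl, rfl⟩ | ⟨rfl, rfl⟩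
    · exact key1 x y n3 n1 n2
    · rw [hd.symm (R i) (R j)] at n1 n2 n3
      exact (key1 y x (by linarith) n2 n1).symm
    · exact key2 x y n3 n1 n2
    · rw [hd.symm (R i) (R j)] at n1 n2 n3
      exact (key2 y x (by linarith) n2 n1).symm
    · rw [hd.symm (R i) (R j)] at n1 n2 n3
      exact key3 x y n3 n1 n2
    · exact (key3 y x (by linarith) n2 n1).symm

end Vale.Agent.P235.H231.K5
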