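import Vale.Agent.P235.K5.Cap
import Vale.Agent.P235.H231.K5.Collar

/-!
# P235, line K5: `CollarStmt` of `K5/Cap.lean`
-/

set_option autoImplicit false

namespace Vale.Agent.P235.H231.K5

open Vale.Agent.P235 Vale.Agent.P235.K5

theorem pm_of_met {V : Type} {d : V → V → ℝ} (h : IsMet d) : PM d := ⟨h.self, h.symm, h.tri⟩

/-- Gromov products of a metric on three points -/
noncomputable def ga (ρ : Fin 3 → Fin 3 → ℝ) (i : Fin 3) : ℝ :=
  (ρ i (i + 1) + ρ i (i + 2) - ρ (i + 1) (i + 2)) / 2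

theorem ga_nonneg {ρ : Fin 3 → Fin 3 → ℝ} (h : IsMet ρ) (i : Fin 3) : 0 ≤ ga ρ i := by
  unfold ga
  have h1 := h.tri (i + 1) i (i + 2)
  have h2 := h.symm (i + 1) i
  linarith

theorem ga_add {ρ : Fin 3 → Fin 3 → ℝ} (h : IsMet ρ) (i j : Fin 3) (hij : i ≠ j) :
    ga ρ i + ga ρ j = ρ i j := by
  have s01 := h.symm 0 1
  have s02 := h.symm 0 2
  have s12 := h.symm 1 2
  have e0 : ga ρ 0 = (ρ 0 1 + ρ 0 2 - ρ 1 2) / 2 := rfl
  have e1 : ga ρ 1 = (ρ 1 2 + ρ 1 0 - ρ 2 0) / 2 := rfl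
  have e2 : ga ρ 2 = (ρ 2 0 + ρ 2 1 - ρ 0 1) / 2 := rfl
  fin_cases i <;> fin_cases j
  · exact absurd rfl hij
  · show ga ρ 0 + ga ρ 1 = ρ 0 1
    rw [e0, e1]; linarith
  · show ga ρ 0 + ga ρ 2 = ρ 0 2
    rw [e0, e2]; linarith
  · show ga ρ 1 + ga ρ 0 = ρ 1 0
    rw [e0, e1]; linarith
  · exact absurd rfl hij
  · show ga ρ 1 + ga ρ 2 = ρ 1 2
    rw [e1, e2]; linarith
  · show ga ρ 2 + ga ρ 0 = ρ 2 0
    rw [e0, e2]; linarith
  · show ga ρ 2 + ga ρ 1 = ρ 2 1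
    rw [e1, e2]; linarith
  · exact absurd rfl hij

/-- **[COLLAR]** -/
theorem collarStmt : CollarStmt := by
  intro V _ d hd R _ ρ hρ hle
  have hdp := pm_of_met hd
  obtain ⟨s, q, ls, lq, hR, hfar⟩ := collar hdp R (ga ρ) (ga_nonneg hρ)
    (fun i j hij => by rw [ga_add hρ i j hij]; exact hle i j)
  refine ⟨Mx s q, isL1_max s q, fun i j => ?_, fun x y => max_le (ls x y) (lq x y), ?_⟩
  · by_cases hij : i = j
    · subst hij
      rw [hρ.self]
      unfold Mx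
      simp
    · rw [hR i j hij, ga_add hρ i j hij]
  · rintro x y ⟨i, j, h⟩
    have hn := hdp.nonneg x y
    by_cases hij : i = j
    · subst hij
      exfalso
      rw [hρ.self] at h
      have := hd.tri x (R i) y
      linarith
    · obtain ⟨i', j', hij', h'⟩ := hfar x y i j hij (by
        rw [ga_add hρ i j hij]
        have e := hd.symm y (R j)
        linarith)
      refine ⟨i', j', ?_⟩
      rw [ga_add hρ i' j' hij', hd.symm y (R j')] at h'
      exact h'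

end Vale.Agent.P235.H231.K5
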